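import Mathlib

/-!
Smoothness of post-composition on spaces of continuous maps from a compact space, and smooth
dependence on parameters of the fixed point of a parametrised contraction.
-/

set_option autoImplicit false

open scoped ContDiff Topology NNReal
open Set Filter

namespace Crest.Agent.Lib.SmoothFlow

universe u

section Nem

variable {K : Type*} [TopologicalSpace K] [CompactSpace K]

/-- Pointwise application of a continuous bilinear map, as a linear map. -/
noncomputable def applyLin {G E F : Type*} [NormedAddCommGroup G] [NormedSpace ℝ G]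
    [NormedAddCommGroup E] [NormedSpace ℝ E]
    [NormedAddCommGroup F] [NormedSpace ℝ F] (B : G →L[ℝ] E →L[ℝ] F) :
    C(K, G) →ₗ[ℝ] C(K, E) →ₗ[ℝ] C(K, F) :=
  LinearMap.mk₂ ℝ
    (fun A h => ⟨fun s => B (A s) (h s), (B.continuous.comp A.continuous).clm_apply h.continuous⟩)
    (fun A B h => by ext s; simp)
    (fun c A h => by ext s; simp)
    (fun A h k => by ext s; simp)
    (fun c A h => by ext s; simp)

/-- Pointwise application of a continuous bilinear map, as a continuous bilinear map. -/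
noncomputable def applyCLM {G E F : Type*} [NormedAddCommGroup G] [NormedSpace ℝ G]
    [NormedAddCommGroup E] [NormedSpace ℝ E]
    [NormedAddCommGroup F] [NormedSpace ℝ F] (B : G →L[ℝ] E →L[ℝ] F) :
    C(K, G) →L[ℝ] C(K, E) →L[ℝ] C(K, F) :=
  LinearMap.mkContinuous₂ (applyLin B) ‖B‖ (fun A h => by
    refine (ContinuousMap.norm_le _ (by positivity)).2 fun s => ?_
    refine (B.le_opNorm₂ _ _).trans ?_
    gcongr
    · exact A.norm_coe_le_norm s
    · exact h.norm_coe_le_norm s)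

@[simp] theorem applyCLM_apply {G E F : Type*} [NormedAddCommGroup G] [NormedSpace ℝ G]
    [NormedAddCommGroup E] [NormedSpace ℝ E]
    [NormedAddCommGroup F] [NormedSpace ℝ F] (B : G →L[ℝ] E →L[ℝ] F) (A : C(K, G)) (h : C(K, E))
    (s : K) : applyCLM B A h s = B (A s) (h s) := rfl

theorem hasFDerivAt_postcomp {E F : Type*} [NormedAddCommGroup E] [NormedSpace ℝ E]
    [NormedAddCommGroup F] [NormedSpace ℝ F] (f : C(E, F)) (f' : C(E, E →L[ℝ] F))
    (hf : ∀ x, HasFDerivAt f (f' x) x) (γ : C(K, E)) :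
    HasFDerivAt (fun γ : C(K, E) => f.comp γ) (applyCLM (ContinuousLinearMap.id ℝ (E →L[ℝ] F)) (f'.comp γ)) γ := by
  rw [hasFDerivAt_iff_isLittleO_nhds_zero, Asymptotics.isLittleO_iff]
  intro ε hε
  have hc : ContinuousAt (fun γ : C(K, E) => f'.comp γ) γ :=
    (ContinuousMap.continuous_postcomp f').continuousAt
  obtain ⟨δ, hδ, hδ'⟩ := (Metric.continuousAt_iff (α := C(K, E)) (β := C(K, E →L[ℝ] F))).1 hc ε hε
  filter_upwards [Metric.ball_mem_nhds (0 : C(K, E)) hδ] with h hh
  rw [mem_ball_zero_iff] at hh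
  refine (ContinuousMap.norm_le _ (by positivity)).2 fun s => ?_
  have key : ‖f (γ s + h s) - f (γ s) - f' (γ s) (γ s + h s - γ s)‖ ≤
      ε * ‖γ s + h s - γ s‖ := by
    refine Convex.norm_image_sub_le_of_norm_hasFDerivWithin_le' (𝕜 := ℝ) (f := f)
      (f' := fun x => f' x) (s := segment ℝ (γ s) (γ s + h s))
      (fun x _ => (hf x).hasFDerivWithinAt) (fun x hx => ?_) (convex_segment _ _)
      (left_mem_segment _ _ _) (right_mem_segment _ _ _)
    rw [segment_eq_image'] at hx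
    obtain ⟨θ, hθ, rfl⟩ := hx
    have h1 : dist (γ + θ • h) γ < δ := by
      rw [dist_eq_norm, add_sub_cancel_left, norm_smul, Real.norm_eq_abs, abs_of_nonneg hθ.1]
      calc θ * ‖h‖ ≤ 1 * ‖h‖ := by gcongr; exact hθ.2
        _ < δ := by simpa using hh
    have h2 := (hδ' h1).le
    have h3 := (ContinuousMap.dist_apply_le_dist (f := f'.comp (γ + θ • h)) (g := f'.comp γ) s).trans h2
    rw [dist_eq_norm] at h3
    simpa using h3
  simp only [add_sub_cancel_left] at key
  calc _ = ‖f (γ s + h s) - f (γ s) - f' (γ s) (h s)‖ := by simp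
    _ ≤ ε * ‖h s‖ := key
    _ ≤ ε * ‖h‖ := by gcongr; exact h.norm_coe_le_norm s

theorem contDiff_postcomp_nat {E : Type u} [NormedAddCommGroup E] [NormedSpace ℝ E] (n : ℕ) :
    ∀ {F : Type u} [NormedAddCommGroup F] [NormedSpace ℝ F] (f : C(E, F)), ContDiff ℝ n f →
      ContDiff ℝ n (fun γ : C(K, E) => f.comp γ) := by
  induction n with
  | zero =>
    intro F _ _ f _
    exact contDiff_zero.2 (ContinuousMap.continuous_postcomp f)
  | succ n ih =>
    intro F _ _ f hf
    rw [Nat.cast_succ] at hf ⊢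
    obtain ⟨f', hf', hd⟩ := contDiff_succ_iff_hasFDerivAt.1 hf
    refine contDiff_succ_iff_hasFDerivAt.2
      ⟨fun γ => applyCLM (ContinuousLinearMap.id ℝ (E →L[ℝ] F))
        ((⟨f', hf'.continuous⟩ : C(E, E →L[ℝ] F)).comp γ), ?_, fun γ => ?_⟩
    · exact (applyCLM (K := K) (ContinuousLinearMap.id ℝ (E →L[ℝ] F))).contDiff.comp
        (ih (⟨f', hf'.continuous⟩ : C(E, E →L[ℝ] F)) hf')
    · exact hasFDerivAt_postcomp f ⟨f', hf'.continuous⟩ hd γ

theorem contDiff_postcomp {E F : Type u} [NormedAddCommGroup E] [NormedSpace ℝ E]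
    [NormedAddCommGroup F] [NormedSpace ℝ F] (f : C(E, F)) (hf : ContDiff ℝ ∞ f) :
    ContDiff ℝ ∞ (fun γ : C(K, E) => f.comp γ) :=
  contDiff_infty.2 fun n => contDiff_postcomp_nat n f (contDiff_infty.1 hf n)

end Nem

/-- The fixed point of a smooth family of contractions depends smoothly on the parameter. -/
theorem contDiffOn_fixedPoint {P X : Type*} [NormedAddCommGroup P] [NormedSpace ℝ P]
    [CompleteSpace P] [NormedAddCommGroup X] [NormedSpace ℝ X] [CompleteSpace X]
    (T : P × X → X) (hT : ContDiff ℝ ∞ T) (U : Set P) (hU : IsOpen U)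
    (hK : ∀ p ∈ U, ∃ K : ℝ≥0, K < 1 ∧ LipschitzWith K (fun x => T (p, x)))
    (Γ : P → X) (hΓ : ∀ p ∈ U, T (p, Γ p) = Γ p) : ContDiffOn ℝ ∞ Γ U := by
  intro p hp
  refine ContDiffAt.contDiffWithinAt ?_
  obtain ⟨K, hK1, hKl⟩ := hK p hp
  set f : P × X → X := fun q => q.2 - T q with hf
  have hfd : ContDiff ℝ ∞ f := contDiff_snd.sub hT
  have hTd : HasFDerivAt T (fderiv ℝ T (p, Γ p)) (p, Γ p) :=
    (hT.differentiable (by simp) _).hasFDerivAt
  have h1 : HasFDerivAt (fun x => T (p, x))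
      (fderiv ℝ T (p, Γ p) ∘L ContinuousLinearMap.inr ℝ P X) (Γ p) :=
    hTd.comp (Γ p) (hasFDerivAt_prodMk_right p (Γ p))
  have h2 : ‖fderiv ℝ T (p, Γ p) ∘L ContinuousLinearMap.inr ℝ P X‖ < 1 :=
    (h1.le_of_lipschitz hKl).trans_lt (by exact_mod_cast hK1)
  have h3 : fderiv ℝ f (p, Γ p) ∘L ContinuousLinearMap.inr ℝ P X =
      1 - fderiv ℝ T (p, Γ p) ∘L ContinuousLinearMap.inr ℝ P X := by
    have : HasFDerivAt f (ContinuousLinearMap.snd ℝ P X - fderiv ℝ T (p, Γ p)) (p, Γ p) :=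
      hasFDerivAt_snd.sub hTd
    rw [this.fderiv]
    ext x
    simp
  have hinv : (fderiv ℝ f (p, Γ p) ∘L ContinuousLinearMap.inr ℝ P X).IsInvertible := by
    rw [h3]
    exact ⟨ContinuousLinearEquiv.ofUnit (Units.oneSub _ h2), rfl⟩
  have hn : (∞ : WithTop ℕ∞) ≠ 0 := by simp
  have hc := (hfd.contDiffAt (x := (p, Γ p))).contDiffAt_implicitFunction hn hinv
  refine hc.congr_of_eventuallyEq ?_
  filter_upwards [(hfd.contDiffAt (x := (p, Γ p))).eventually_apply_implicitFunction hn hinv,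
    hU.mem_nhds hp] with q hq hqU
  obtain ⟨K', hK'1, hK'l⟩ := hK q hqU
  have e1 : f (p, Γ p) = 0 := by simp [hf, hΓ p hp]
  rw [e1] at hq
  set y := (hfd.contDiffAt (x := (p, Γ p))).implicitFunction hn hinv q
  have e2 : T (q, y) = y := (sub_eq_zero.1 hq).symm
  have hcw : ContractingWith K' (fun x => T (q, x)) := ⟨hK'1, hK'l⟩
  exact hcw.fixedPoint_unique' (hΓ q hqU) e2

end Crest.Agent.Lib.SmoothFlow
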