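import Mathlib
import Crest.Agent.Lib.SmoothFlow.Nemytskii

/-!
A smooth, globally Lipschitz vector field on a Banach space has a flow that is jointly smooth in
time and initial condition on a uniform time interval.
-/

set_option autoImplicit false

open scoped ContDiff Topology NNReal
open Set Filter

namespace Crest.Agent.Lib.SmoothFlow

universe u

variable {E : Type u} [NormedAddCommGroup E] [NormedSpace ℝ E] [CompleteSpace E]

/-- The parameter interval. -/
abbrev II : Set ℝ := Icc (-1 : ℝ) 1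

theorem II_le : (-1 : ℝ) ≤ 1 := by norm_num

/-- Extension of a path on `[-1,1]` to the line. -/
noncomputable def extd (γ : C(II, E)) (u : ℝ) : E := γ (projIcc (-1) 1 II_le u)

omit [NormedSpace ℝ E] [CompleteSpace E] in
theorem continuous_extd (γ : C(II, E)) : Continuous (extd γ) :=
  γ.continuous.comp continuous_projIcc

omit [NormedSpace ℝ E] [CompleteSpace E] in
theorem extd_of_mem (γ : C(II, E)) {u : ℝ} (hu : u ∈ II) : extd γ u = γ ⟨u, hu⟩ := by
  simp [extd, projIcc_of_mem II_le hu]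

/-- The primitive vanishing at `0`, as a linear map. -/
noncomputable def intLin : C(II, E) →ₗ[ℝ] C(II, E) where
  toFun γ := ⟨fun s => ∫ u in (0 : ℝ)..(s : ℝ), extd γ u,
    (intervalIntegral.continuous_primitive
      (fun _ _ => (continuous_extd γ).intervalIntegrable _ _) 0).comp continuous_subtype_val⟩
  map_add' γ η := by
    ext s
    simp only [ContinuousMap.coe_mk, ContinuousMap.add_apply]
    rw [← intervalIntegral.integral_add ((continuous_extd γ).intervalIntegrable _ _)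
      ((continuous_extd η).intervalIntegrable _ _)]
    rfl
  map_smul' c γ := by
    ext s
    simp only [ContinuousMap.coe_mk, ContinuousMap.smul_apply, RingHom.id_apply]
    rw [← intervalIntegral.integral_smul]
    rfl

omit [CompleteSpace E] in
theorem norm_intLin_le (γ : C(II, E)) : ‖intLin γ‖ ≤ 1 * ‖γ‖ := by
  refine (ContinuousMap.norm_le _ (by positivity)).2 fun s => ?_
  have h := intervalIntegral.norm_integral_le_of_norm_le_const (a := 0) (b := (s : ℝ))
    (f := extd γ) (C := ‖γ‖) (fun u _ => γ.norm_coe_le_norm _)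
  refine h.trans ?_
  have : |(s : ℝ) - 0| ≤ 1 := by
    rw [sub_zero, abs_le]; exact s.2
  rw [mul_comm]
  gcongr

/-- The primitive vanishing at `0`, as a continuous linear map. -/
noncomputable def intCLM : C(II, E) →L[ℝ] C(II, E) :=
  LinearMap.mkContinuous intLin 1 norm_intLin_le

omit [CompleteSpace E] in
theorem intCLM_apply (γ : C(II, E)) (s : II) :
    intCLM γ s = ∫ u in (0 : ℝ)..(s : ℝ), extd γ u := rfl

/-- The rescaled Picard operator. -/
noncomputable def picOp (V : C(E, E)) (q : (ℝ × E) × C(II, E)) : C(II, E) :=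
  ContinuousLinearMap.const ℝ II q.1.2 + q.1.1 • intCLM (V.comp q.2)

omit [CompleteSpace E] in
theorem picOp_apply (V : C(E, E)) (τ : ℝ) (z : E) (γ : C(II, E)) (s : II) :
    picOp V ((τ, z), γ) s = z + τ • ∫ u in (0 : ℝ)..(s : ℝ), V (extd γ u) := rfl

omit [CompleteSpace E] in
theorem contDiff_picOp (V : C(E, E)) (hV : ContDiff ℝ ∞ V) : ContDiff ℝ ∞ (picOp V) := by
  unfold picOp
  refine ContDiff.add ?_ (ContDiff.smul (contDiff_fst.fst) ?_)
  · exact (ContinuousLinearMap.const ℝ II (M := E)).contDiff.comp contDiff_fst.snd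
  · exact (intCLM (E := E)).contDiff.comp ((contDiff_postcomp V hV).comp contDiff_snd)

omit [CompleteSpace E] in
theorem lipschitz_picOp (V : C(E, E)) {K : ℝ≥0} (hK : LipschitzWith K V) (p : ℝ × E) :
    LipschitzWith (‖p.1‖₊ * K) (fun γ => picOp V (p, γ)) := by
  refine LipschitzWith.of_dist_le_mul fun γ η => ?_
  rw [dist_eq_norm, dist_eq_norm]
  have : picOp V (p, γ) - picOp V (p, η) = p.1 • intCLM (V.comp γ - V.comp η) := by
    simp only [picOp, map_sub, smul_sub]; abel
  rw [this, norm_smul]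
  have h1 : ‖V.comp γ - V.comp η‖ ≤ K * ‖γ - η‖ := by
    refine (ContinuousMap.norm_le _ (by positivity)).2 fun s => ?_
    have := hK.norm_sub_le (γ s) (η s)
    refine this.trans ?_
    gcongr
    exact (γ - η).norm_coe_le_norm s
  have h2 : ‖intCLM (V.comp γ - V.comp η)‖ ≤ 1 * ‖V.comp γ - V.comp η‖ := norm_intLin_le _
  push_cast
  rw [mul_assoc]
  gcongr
  linarith

theorem exists_smooth_flow (V : E → E) (hV : ContDiff ℝ ∞ V) {K : ℝ≥0} (hK : LipschitzWith K V) :
    ∃ δ : ℝ, 0 < δ ∧ ∃ Φ : ℝ × E → E, ContDiffOn ℝ ∞ Φ (Ioo (-δ) δ ×ˢ univ) ∧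
      (∀ z, Φ (0, z) = z) ∧
      ∀ z, ∀ t ∈ Ioo (-δ) δ, HasDerivAt (fun s => Φ (s, z)) (V (Φ (t, z))) t := by
  set W : C(E, E) := ⟨V, hV.continuous⟩ with hW
  have hKW : LipschitzWith K W := hK
  set U : Set (ℝ × E) := {p | ‖p.1‖₊ * K < 1} with hU
  have hUo : IsOpen U := isOpen_lt (by fun_prop) continuous_const
  have hcon : ∀ p ∈ U, ContractingWith (‖p.1‖₊ * K) (fun γ => picOp W (p, γ)) :=
    fun p hp => ⟨hp, lipschitz_picOp W hKW p⟩
  have hex : ∀ p : ℝ × E, ∃ γ : C(II, E), p ∈ U → picOp W (p, γ) = γ := by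
    intro p
    by_cases hp : p ∈ U
    · exact ⟨(hcon p hp).fixedPoint _, fun _ => (hcon p hp).fixedPoint_isFixedPt⟩
    · exact ⟨0, fun h => (hp h).elim⟩
  choose Γ hΓ using hex
  have hsm : ContDiffOn ℝ ∞ Γ U :=
    contDiffOn_fixedPoint (picOp W) (contDiff_picOp W hV) U hUo
      (fun p hp => ⟨_, hp, lipschitz_picOp W hKW p⟩) Γ hΓ
  set δ : ℝ := 1 / (K + 1) with hδ
  have hδ0 : 0 < δ := by positivity
  have hmem : ∀ t : ℝ, |t| ≤ δ → ∀ z : E, (t, z) ∈ U := by
    intro t ht z
    have : |t| * K < 1 := by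
      calc |t| * K ≤ δ * K := by gcongr
        _ < 1 := by rw [hδ, div_mul_eq_mul_div, div_lt_one (by positivity)]; linarith
    show ‖t‖₊ * K < 1
    rw [← NNReal.coe_lt_coe]
    simpa using this
  have h1 : (1 : ℝ) ∈ II := ⟨by norm_num, le_rfl⟩
  -- scaling identity
  have hscale : ∀ z : E, ∀ σ : ℝ, ∀ hσ : σ ∈ II, Γ (δ * σ, z) ⟨1, h1⟩ = Γ (δ, z) ⟨σ, hσ⟩ := by
    intro z σ hσ
    have hσ' : |σ| ≤ 1 := abs_le.2 hσ
    have hmul : ∀ s : ℝ, s ∈ II → σ * s ∈ II := by
      intro s hs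
      have : |σ * s| ≤ 1 := by
        rw [abs_mul]; exact mul_le_one₀ hσ' (abs_nonneg _) (abs_le.2 hs)
      exact abs_le.1 this
    set γ := Γ (δ, z) with hγ
    let η : C(II, E) := ⟨fun s => extd γ (σ * s),
      (continuous_extd γ).comp (continuous_const.mul continuous_subtype_val)⟩
    have hp : (δ * σ, z) ∈ U := hmem _ (by
      rw [abs_mul, abs_of_pos hδ0]; exact mul_le_of_le_one_right hδ0.le hσ') z
    have hfix : picOp W ((δ * σ, z), η) = η := by
      ext s
      rw [picOp_apply]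
      have e1 : η s = γ ⟨σ * s, hmul s s.2⟩ := extd_of_mem γ (hmul s s.2)
      have e2 := congrArg (fun f : C(II, E) => f ⟨σ * s, hmul s s.2⟩)
        (hΓ (δ, z) (hmem δ (by rw [abs_of_pos hδ0]) z))
      rw [picOp_apply] at e2
      rw [e1, ← e2]
      congr 1
      rw [mul_smul]
      congr 1
      have e3 := intervalIntegral.smul_integral_comp_mul_left (a := 0) (b := (s : ℝ))
        (fun u => W (extd γ u)) σ
      rw [mul_zero] at e3
      rw [← e3]
      congr 1
      refine intervalIntegral.integral_congr fun u hu => ?_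
      have hu' : u ∈ II := by
        have hs := s.2
        rcases le_total 0 (s : ℝ) with h | h
        · rw [uIcc_of_le h] at hu; exact ⟨by linarith [hu.1], hu.2.trans hs.2⟩
        · rw [uIcc_of_ge h] at hu; exact ⟨hs.1.trans hu.1, by linarith [hu.2]⟩
      rw [extd_of_mem η hu']
      rfl
    have huniq : Γ (δ * σ, z) = η := (hcon _ hp).fixedPoint_unique' (hΓ _ hp) hfix
    rw [huniq]
    show extd γ (σ * 1) = _
    rw [mul_one, extd_of_mem γ hσ]
  refine ⟨δ, hδ0, fun p => Γ p ⟨1, h1⟩, ?_, ?_, ?_⟩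
  · refine (ContinuousMap.evalCLM ℝ (⟨1, h1⟩ : II) (M := E)).contDiff.comp_contDiffOn
      (hsm.mono ?_)
    rintro ⟨t, z⟩ ⟨ht, -⟩
    exact hmem t (abs_le.2 ⟨ht.1.le, ht.2.le⟩) z
  · intro z
    have e2 := congrArg (fun f : C(II, E) => f ⟨1, h1⟩)
        (hΓ (0, z) (hmem 0 (by simpa using hδ0.le) z))
    rw [picOp_apply] at e2
    simpa using e2.symm
  · intro z t ht
    set γ := Γ (δ, z) with hγ
    have hin : ∀ s ∈ Ioo (-δ) δ, s / δ ∈ II := by
      intro s hs
      constructor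
      · rw [le_div_iff₀ hδ0]; linarith [hs.1]
      · rw [div_le_iff₀ hδ0]; linarith [hs.2]
    have hΦ : ∀ s ∈ Ioo (-δ) δ, Γ (s, z) ⟨1, h1⟩ = extd γ (s / δ) := by
      intro s hs
      have := hscale z (s / δ) (hin s hs)
      rw [mul_div_cancel₀ _ hδ0.ne'] at this
      rw [this, extd_of_mem γ (hin s hs)]
    have hΦ' : ∀ s ∈ Ioo (-δ) δ,
        Γ (s, z) ⟨1, h1⟩ = z + δ • ∫ u in (0 : ℝ)..(s / δ), W (extd γ u) := by
      intro s hs
      have e2 := congrArg (fun f : C(II, E) => f ⟨s / δ, hin s hs⟩)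
        (hΓ (δ, z) (hmem δ (by rw [abs_of_pos hδ0]) z))
      rw [picOp_apply] at e2
      rw [hΦ s hs, extd_of_mem γ (hin s hs), ← e2]
    have hc : Continuous fun u => W (extd γ u) := W.continuous.comp (continuous_extd γ)
    have hd1 : HasDerivAt (fun x => ∫ u in (0 : ℝ)..x, W (extd γ u)) (W (extd γ (t / δ))) (t / δ) :=
      (hc.integral_hasStrictDerivAt 0 (t / δ)).hasDerivAt
    have hd2 : HasDerivAt (fun s : ℝ => s / δ) (1 / δ) t := (hasDerivAt_id t).div_const δ
    have hd3 := ((hd1.scomp t hd2).const_smul δ).const_add z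
    have e : δ • (1 / δ) • W (extd γ (t / δ)) = V (Γ (t, z) ⟨1, h1⟩) := by
      rw [smul_smul, mul_one_div_cancel hδ0.ne', one_smul, hΦ t ht]; rfl
    rw [e] at hd3
    refine hd3.congr_of_eventuallyEq ?_
    filter_upwards [isOpen_Ioo.mem_nhds ht] with s hs
    exact hΦ' s hs

end Crest.Agent.Lib.SmoothFlow
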